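import Vale.Agent.P218UA.Props3
import Vale.Agent.P218UW.Resc
import Vale.Agent.P218UV.Visc

/-! Weak flows of surfaces which are smooth off a closed null set `Z` of times: definitions shared
by all blocks of the team P218W. At the times in `Z` the function `w t` is a nonzero constant, so
that `w t x = 0` forces `t ∉ Z`. -/

open MeasureTheory Set Filter Topology Metric
open scoped ENNReal NNReal RealInnerProductSpace ContDiff

namespace Vale.Agent.P218WA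

open Vale.Agent.P218UA
open Vale.Agent.P218.H63 (lap hessSq)

/-- the right-hand side of Brakke's inequality at the time `t` -/
noncomputable def bk (w f : ℝ → E3 → ℝ) (t : ℝ) : ℝ :=
  ∫ x, (deriv (fun s => f s x) t - lap (w t) x * ⟪gradient (f t) x, gradient (w t) x⟫
    - lap (w t) x ^ 2 * f t x) ∂(ar (w t))

/-- the defect in Brakke's inequality on the time interval `[a, b]` -/
noncomputable def dfc (w f : ℝ → E3 → ℝ) (a b : ℝ) : ℝ :=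
  ∫ x, f a x ∂(ar (w a)) - ∫ x, f b x ∂(ar (w b)) + ∫ t in a..b, bk w f t

/-- in the open set `N` of space-time the flow is smooth, also across the times in `Z`: `v` is a
signed distance function of a smooth flow which agrees with the given one at the regular times -/
structure Loc (w : ℝ → E3 → ℝ) (Z : Set ℝ) (v : ℝ × E3 → ℝ) (N : Set (ℝ × E3)) : Prop where
  isOpen : IsOpen N
  smooth : ContDiffOn ℝ ∞ v N
  eik : ∀ q ∈ N, v q = 0 → ∀ᶠ q' : ℝ × E3 in 𝓝 q, ‖gradient (fun x => v (q'.1, x)) q'.2‖ = 1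
  zero : ∀ q ∈ N, q.1 ∉ Z → (v q = 0 ↔ w q.1 q.2 = 0)
  pm : ∀ q ∈ N, q.1 ∉ Z → v q = 0 → ∃ σ : ℝ, (σ = 1 ∨ σ = -1) ∧
    ∀ᶠ q' : ℝ × E3 in 𝓝 q, v q' = σ * w q'.1 q'.2

/-- the flow is smooth near the point `p` of space-time -/
def RegAt (w : ℝ → E3 → ℝ) (Z : Set ℝ) (p : ℝ × E3) : Prop := ∃ v N, p ∈ N ∧ Loc w Z v N

/-- test functions on `J × ℝ³`, `J ⊆ I` an open interval, with compact support in space -/
structure Test (n : ℕ) (I J : Set ℝ) (f : ℝ → E3 → ℝ) : Prop where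
  isOpen : IsOpen J
  conn : J.OrdConnected
  sub : J ⊆ I
  smooth : ContDiffOn ℝ n (fun p : ℝ × E3 => f p.1 p.2) (J ×ˢ univ)
  supp : ∃ K, IsCompact K ∧ ∀ t ∈ J, ∀ x, x ∉ K → f t x = 0

/-- a Brakke flow on the time interval `I` which is smooth off the closed null set `Z` of times -/
structure IsW0 (w : ℝ → E3 → ℝ) (I Z : Set ℝ) (A : ℝ) : Prop where
  isOpen : IsOpen I
  conn : I.OrdConnected
  closed : IsClosed Z
  null : volume Z = 0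
  smooth : ContDiffOn ℝ ∞ (fun p : ℝ × E3 => w p.1 p.2) ((I \ Z) ×ˢ univ)
  eik : ∀ t ∈ I, ∀ x, w t x = 0 → ∀ᶠ p : ℝ × E3 in 𝓝 (t, x), ‖gradient (w p.1) p.2‖ = 1
  eqn : ∀ t ∈ I, ∀ x, w t x = 0 → deriv (fun s => w s x) t = lap (w t) x
  sing : ∀ t ∈ Z, ∃ c : ℝ, c ≠ 0 ∧ w t = fun _ => c
  one_le : 1 ≤ A
  ratio : ∀ t ∈ I, AR (ar (w t)) A
  hsq : ∀ a b : ℝ, Icc a b ⊆ I → ∀ K : Set E3, IsCompact K →
    ∫⁻ t in Icc a b, ∫⁻ x in K, ENNReal.ofReal (lap (w t) x ^ 2) ∂(ar (w t)) < ⊤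
  brakke : ∀ f : ℝ → E3 → ℝ, ContDiff ℝ 1 (fun p : ℝ × E3 => f p.1 p.2) →
    HasCompactSupport (fun p : ℝ × E3 => f p.1 p.2) → (∀ t x, 0 ≤ f t x) →
    ∀ a ∈ I \ Z, ∀ b ∈ I \ Z, a ≤ b → 0 ≤ dfc w f a b

/-- in addition, the points of small Gaussian density are regular -/
structure IsW (w : ℝ → E3 → ℝ) (I Z : Set ℝ) (A : ℝ) : Prop extends IsW0 w I Z A where
  reg : ∀ p : ℝ × E3, p.1 ∈ I → ∀ t₁ ∈ I \ Z, t₁ < p.1 →
    gd (ar (w t₁)) p.2 √(p.1 - t₁) < 1 + 1 / A → RegAt w Z p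

/-- in addition, the local Gauss-Bonnet estimate holds -/
structure IsG0 (w : ℝ → E3 → ℝ) (I Z : Set ℝ) (A C : ℝ) : Prop extends IsW0 w I Z A where
  one_le' : 1 ≤ C
  lgb : ∀ t ∈ I, LGB (w t) C

/-- both additional properties -/
structure IsWG (w : ℝ → E3 → ℝ) (I Z : Set ℝ) (A C : ℝ) : Prop
  extends IsW w I Z A, IsG0 w I Z A C

/-- the set of times after the rescaling `P218UW.rs w t₁ x₁ σ` -/
def pre (t₁ σ : ℝ) (S : Set ℝ) : Set ℝ := (fun t => t₁ + σ ^ 2 * t) ⁻¹' S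

/-- the set of times after the rescaling `resc w s` -/
def zs (Z : Set ℝ) (s : ℝ) : Set ℝ := (fun t => s ^ 2 * t) ⁻¹' Z

/-- a tangent flow along a sequence of scales for which the time `-1` is regular -/
structure TanW (w : ℝ → E3 → ℝ) (Z : Set ℝ) (s : ℕ → ℝ) (ν : Measure E3) : Prop
    extends TanSeq w s ν where
  regT : ∀ i, s i ^ 2 * (-1) ∉ Z

/-- the defect in Brakke's inequality in `[a, b] × B` is at most `e` -/
def DefLe (w : ℝ → E3 → ℝ) (Z : Set ℝ) (B : Set E3) (a b e : ℝ) : Prop :=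
  ∀ f : E3 → ℝ, ContDiff ℝ 1 f → (∀ x, 0 ≤ f x ∧ f x ≤ 1) → tsupport f ⊆ B →
    ∀ c ∈ Icc a b \ Z, ∀ d ∈ Icc a b \ Z, c ≤ d → dfc w (fun _ => f) c d ≤ e

/-- the conclusion of the graphical regularity theorem on the time interval `T` -/
def SheetOnW (w : ℝ → E3 → ℝ) (Z T : Set ℝ) (Q : E3 ≃ₗᵢ[ℝ] E3) (p : E3) (R ρ η : ℝ) : Prop :=
  (∀ t ∈ T, ∀ (ξ : E2) (s : ℝ), ‖ξ‖ < R → |s| < 5 * ρ → w t (pt Q p ξ s) ≠ 0) ∨
    ∃ u : ℝ → E2 → ℝ, ∀ t ∈ T, (t ∉ Z → IsGraph {x | w t x = 0} Q p R (5 * ρ) (u t)) ∧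
      ∀ ξ : E2, ‖ξ‖ < R → ContDiffAt ℝ ∞ (fun q : ℝ × E2 => u q.1 q.2) (t, ξ) ∧
        (∀ᶠ q : ℝ × E2 in 𝓝 (t, ξ), q.1 ∉ Z → w q.1 (pt Q p q.2 (u q.1 q.2)) = 0) ∧
        deriv (fun s => u s ξ) t = gmc (u t) ξ ∧
        |u t ξ| ≤ η * ρ ∧ ‖gradient (u t) ξ‖ ≤ η ∧ ‖fderiv ℝ (gradient (u t)) ξ‖ ≤ η / ρ

/-- `x` is the first point of `{W = 0}` on a ray from `z` in the direction `± n z`, at a distance at
most `S`, and the ray is transverse to the surface at `x` -/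
def Hit (W : E3 → ℝ) (n : E3 → E3) (c S : ℝ) (z x : E3) : Prop :=
  W z = 0 ∧ W x = 0 ∧ c ≤ |⟪n z, gradient W x⟫| ∧ ∃ σ : ℝ, σ ≠ 0 ∧ |σ| ≤ S ∧ x = z + σ • n z ∧
    ∀ τ ∈ Ioo (0 : ℝ) 1, W (z + (τ * σ) • n z) ≠ 0

/-- `z` is a nearest point to `x` on another sheet of `{W = 0}` -/
def Adm (W : E3 → ℝ) (θ c : ℝ) (x z : E3) : Prop :=
  W x = 0 ∧ W z = 0 ∧ z ≠ x ∧ Reg W θ x ‖z - x‖ ∧ c * ‖z - x‖ ≤ |⟪z - x, gradient W x⟫| ∧
    z - x = ⟪gradient W z, z - x⟫ • gradient W z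

/-- the tilt between the tangent planes at `x` and at `z` -/
noncomputable def tilt (W : E3 → ℝ) (x z : E3) : ℝ := 1 - |⟪gradient W x, gradient W z⟫|

variable {w : ℝ → E3 → ℝ} {I Z J : Set ℝ} {A t : ℝ}

theorem IsW0.notMem (h : IsW0 w I Z A) {x : E3} (hx : w t x = 0) : t ∉ Z := fun ht => by
  obtain ⟨c, h1, h2⟩ := h.sing t ht
  exact h1 (by simpa [h2] using hx)

theorem IsW0.isOpen_reg (h : IsW0 w I Z A) : IsOpen (I \ Z) := h.isOpen.sdiff h.closed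

theorem IsW0.flow (h : IsW0 w I Z A) (hJ : IsOpen J) (hc : J.OrdConnected) (hs : J ⊆ I \ Z) :
    IsARFlow w J A :=
  ⟨⟨hJ, hc, h.smooth.mono (prod_mono_left hs), fun t ht => h.eik t (hs ht).1,
    fun t ht => h.eqn t (hs ht).1⟩, h.one_le, fun t ht => h.ratio t (hs ht).1⟩

theorem IsW0.loc (h : IsW0 w I Z A) (ht : t ∈ I \ Z) :
    ∃ a b, t ∈ Ioo a b ∧ Ioo a b ⊆ I \ Z ∧ IsARFlow w (Ioo a b) A := by
  obtain ⟨a, b, h1, h2⟩ := mem_nhds_iff_exists_Ioo_subset.1 (h.isOpen_reg.mem_nhds ht)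
  exact ⟨a, b, h1, h2, h.flow isOpen_Ioo ordConnected_Ioo h2⟩

theorem IsW0.ar_sing (h : IsW0 w I Z A) (ht : t ∈ Z) : ar (w t) = 0 := by
  have : {x | w t x = 0} = ∅ := eq_empty_of_forall_notMem fun x hx => h.notMem hx ht
  simp [ar, this]

theorem IsW0.slice (h : IsW0 w I Z A) (ht : t ∈ I) : IsSurf (w t) := by
  by_cases hZ : t ∈ Z
  · obtain ⟨c, h1, h2⟩ := h.sing t hZ
    exact ⟨h2 ▸ contDiff_const, fun x hx => absurd hZ (h.notMem hx)⟩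
  · refine ⟨contDiffOn_univ.1 (h.smooth.comp (f := fun x : E3 => (t, x)) (by fun_prop)
      fun x _ => ⟨⟨ht, hZ⟩, trivial⟩), fun x hx => ?_⟩
    exact (by fun_prop : ContinuousAt (fun y : E3 => (t, y)) x).eventually (h.eik t ht x hx)

theorem IsW0.mono (h : IsW0 w I Z A) (hJ : IsOpen J) (hc : J.OrdConnected) (hs : J ⊆ I) :
    IsW0 w J Z A :=
  ⟨hJ, hc, h.closed, h.null, h.smooth.mono (prod_mono_left (sdiff_subset_sdiff_left hs)),
    fun t ht => h.eik t (hs ht), fun t ht => h.eqn t (hs ht), h.sing, h.one_le,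
    fun t ht => h.ratio t (hs ht), fun a b hab => h.hsq a b (hab.trans hs),
    fun f h1 h2 h3 a ha b hb => h.brakke f h1 h2 h3 a ⟨hs ha.1, ha.2⟩ b ⟨hs hb.1, hb.2⟩⟩

theorem IsW.mono (h : IsW w I Z A) (hJ : IsOpen J) (hc : J.OrdConnected) (hs : J ⊆ I) :
    IsW w J Z A :=
  ⟨h.toIsW0.mono hJ hc hs, fun p hp t₁ ht => h.reg p (hs hp) t₁ ⟨hs ht.1, ht.2⟩⟩

theorem IsG0.mono {C : ℝ} (h : IsG0 w I Z A C) (hJ : IsOpen J) (hc : J.OrdConnected)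
    (hs : J ⊆ I) : IsG0 w J Z A C :=
  ⟨h.toIsW0.mono hJ hc hs, h.one_le', fun t ht => h.lgb t (hs ht)⟩

theorem IsWG.mono {C : ℝ} (h : IsWG w I Z A C) (hJ : IsOpen J) (hc : J.OrdConnected)
    (hs : J ⊆ I) : IsWG w J Z A C :=
  ⟨h.toIsW.mono hJ hc hs, h.one_le', fun t ht => h.lgb t (hs ht)⟩

/-- regular times are dense -/
theorem exists_notMem (hZ : volume Z = 0) {a b : ℝ} (hab : a < b) : ∃ t ∈ Ioo a b, t ∉ Z := by
  by_contra! h
  exact (measure_mono_null h hZ ▸ (isOpen_Ioo.measure_pos volume (nonempty_Ioo.2 hab))).false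

theorem ae_notMem (hZ : volume Z = 0) : ∀ᵐ t : ℝ, t ∉ Z := measure_eq_zero_iff_ae_notMem.1 hZ

/-- at the regular times every point is regular -/
theorem IsW0.regAt (h : IsW0 w I Z A) {p : ℝ × E3} (hp : p.1 ∈ I \ Z) : RegAt w Z p :=
  ⟨fun q => w q.1 q.2, (I \ Z) ×ˢ univ, ⟨hp, trivial⟩, h.isOpen_reg.prod isOpen_univ, h.smooth,
    fun q hq h0 => h.eik q.1 hq.1.1 q.2 h0, fun _ _ _ => Iff.rfl,
    fun _ _ _ _ => ⟨1, Or.inl rfl, Eventually.of_forall fun _ => by simp⟩⟩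

theorem RegAt.eventually {p : ℝ × E3} (h : RegAt w Z p) : ∀ᶠ q in 𝓝 p, RegAt w Z q :=
  let ⟨v, N, h1, h2⟩ := h
  mem_of_superset (h2.isOpen.mem_nhds h1) fun _ hq => ⟨v, N, hq, h2⟩

theorem Test.static {n : ℕ} {f : E3 → ℝ} (h : IsW0 w I Z A) (hf : ContDiff ℝ n f)
    (hc : HasCompactSupport f) : Test n I I fun _ => f :=
  ⟨h.isOpen, h.conn, subset_rfl, (hf.comp contDiff_snd).contDiffOn, _, hc.isCompact,
    fun _ _ _ hx => image_eq_zero_of_notMem_tsupport hx⟩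

end Vale.Agent.P218WA
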