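import Vale.Agent.P218WA.Defs

/-! Team P218W: the interfaces between the blocks (definitions of propositions only). Each block
proves one proposition of this file, using earlier ones as hypotheses. -/

open MeasureTheory Set Filter Topology Metric
open scoped ENNReal NNReal RealInnerProductSpace ContDiff

namespace Vale.Agent.P218WA

open Vale.Agent.P218UA
open Vale.Agent.P218 (WeakTendsto)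
open Vale.Agent.P218.H63 (lap hessSq)
open Vale.Agent.P218UW (rs)
open Vale.Agent.P218UV (trk)

/-- [CALC] the space-time measure, the defect, Green's inequality, rescalings -/
structure CalcW : Prop where
  stm_meas : ∀ w I Z A, IsW0 w I Z A → ∀ f : ℝ × E3 → ℝ≥0∞, Measurable f →
    AEMeasurable (fun t => ∫⁻ x, f (t, x) ∂(ar (w t))) (volume.restrict I)
  stm_lint : ∀ w I Z A, IsW0 w I Z A → ∀ f : ℝ × E3 → ℝ≥0∞, Measurable f →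
    ∫⁻ p, f p ∂(stm w I) = ∫⁻ t in I, ∫⁻ x, f (t, x) ∂(ar (w t))
  stm_int : ∀ w I Z A, IsW0 w I Z A → ∀ f : ℝ × E3 → ℝ, Integrable f (stm w I) →
    IntegrableOn (fun t => ∫ x, f (t, x) ∂(ar (w t))) I ∧
      ∫ p, f p ∂(stm w I) = ∫ t in I, ∫ x, f (t, x) ∂(ar (w t))
  stm_fin : ∀ w I Z A, IsW0 w I Z A → ∀ K, IsCompact K → K ⊆ I ×ˢ univ → stm w I K < ⊤
  stm_ae : ∀ w I Z A, IsW0 w I Z A → ∀ᵐ p ∂(stm w I), p.1 ∈ I \ Z ∧ w p.1 p.2 = 0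
  lap_int : ∀ w I Z A, IsW0 w I Z A → ∀ K, IsCompact K → K ⊆ I ×ˢ univ →
    IntegrableOn (fun p : ℝ × E3 => lap (w p.1) p.2 ^ 2) K (stm w I)
  bk_int : ∀ w I Z A, IsW0 w I Z A → ∀ J f, Test 1 I J f → ∀ a ∈ J, ∀ b ∈ J,
    IntervalIntegrable (bk w f) volume a b
  brakke : ∀ w I Z A, IsW0 w I Z A → ∀ J f, Test 1 I J f → ∀ a ∈ J \ Z, ∀ b ∈ J \ Z, a ≤ b →
    (∀ t ∈ Icc a b, ∀ x, 0 ≤ f t x) → 0 ≤ dfc w f a b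
  dfc_lin : ∀ w I Z A, IsW0 w I Z A → ∀ J f g, Test 1 I J f → Test 1 I J g → ∀ a ∈ J, ∀ b ∈ J,
    ∀ α β : ℝ, dfc w (fun t x => α * f t x + β * g t x) a b = α * dfc w f a b + β * dfc w g a b
  dfc_add : ∀ w I Z A, IsW0 w I Z A → ∀ J f, Test 1 I J f → ∀ a ∈ J, ∀ b ∈ J, ∀ c ∈ J,
    dfc w f a b + dfc w f b c = dfc w f a c
  dfc_le : ∀ w I Z A, IsW0 w I Z A → ∀ J φ χ, Test 1 I J φ → Test 1 I J χ →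
    ∀ a ∈ J \ Z, ∀ b ∈ J \ Z, a ≤ b → (∀ t ∈ Icc a b, ∀ x, |φ t x| ≤ χ t x) →
    |dfc w φ a b| ≤ dfc w χ a b
  bk_green : ∀ w I Z A, IsW0 w I Z A → ∀ J ψ (f : ℝ → E3 → ℝ), Test 2 I J ψ →
    ContDiffOn ℝ 2 (fun p : ℝ × E3 => f p.1 p.2) (J ×ˢ univ) → ∀ t ∈ J,
    bk w (fun t x => ψ t x * f t x) t
      = ∫ x, (ψ t x * heat w f t x + f t x * adj w ψ t x) ∂(ar (w t))
  green : ∀ w I Z A, IsW0 w I Z A → ∀ J ψ (f : ℝ → E3 → ℝ), Test 2 I J ψ →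
    ContDiffOn ℝ 2 (fun p : ℝ × E3 => f p.1 p.2) (J ×ˢ univ) →
    ∀ a ∈ J \ Z, ∀ b ∈ J \ Z, a ≤ b → (∀ t ∈ Icc a b, ∀ x, 0 ≤ ψ t x * f t x) →
    IntervalIntegrable (fun t => ∫ x, (ψ t x * heat w f t x + f t x * adj w ψ t x) ∂(ar (w t)))
      volume a b ∧
    ∫ x, ψ b x * f b x ∂(ar (w b)) - ∫ x, ψ a x * f a x ∂(ar (w a))
      ≤ ∫ t in a..b, ∫ x, (ψ t x * heat w f t x + f t x * adj w ψ t x) ∂(ar (w t))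
  /-- the defect of a fixed test function is dominated by a measure on the time axis -/
  nu : ∀ w I Z A, IsW0 w I Z A → ∀ χ : E3 → ℝ, ContDiff ℝ 1 χ → HasCompactSupport χ →
    (∀ x, 0 ≤ χ x) → ∀ a b e : ℝ, Icc a b ⊆ I →
    (∀ c ∈ Icc a b \ Z, ∀ d ∈ Icc a b \ Z, c ≤ d → dfc w (fun _ => χ) c d ≤ e) →
    ∃ ν : Measure ℝ, ν univ ≤ ENNReal.ofReal e ∧ ∀ c ∈ Icc a b \ Z, ∀ d ∈ Icc a b \ Z, c ≤ d →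
      ENNReal.ofReal (dfc w (fun _ => χ) c d) ≤ ν (Icc c d)
  rs0 : ∀ w I Z A, IsW0 w I Z A → ∀ (t₁ : ℝ) (x₁ : E3) (σ : ℝ), 0 < σ →
    IsW0 (rs w t₁ x₁ σ) (pre t₁ σ I) (pre t₁ σ Z) A
  rsReg : ∀ w Z (t₁ : ℝ) (x₁ : E3) (σ : ℝ) (p : ℝ × E3), 0 < σ →
    RegAt w Z (t₁ + σ ^ 2 * p.1, x₁ + σ • p.2) → RegAt (rs w t₁ x₁ σ) (pre t₁ σ Z) p
  rs1 : ∀ w I Z A, IsW w I Z A → ∀ (t₁ : ℝ) (x₁ : E3) (σ : ℝ), 0 < σ →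
    IsW (rs w t₁ x₁ σ) (pre t₁ σ I) (pre t₁ σ Z) A
  rsG0 : ∀ w I Z A C, IsG0 w I Z A C → ∀ (t₁ : ℝ) (x₁ : E3) (σ : ℝ), 0 < σ →
    IsG0 (rs w t₁ x₁ σ) (pre t₁ σ I) (pre t₁ σ Z) A C
  rsG : ∀ w I Z A C, IsWG w I Z A C → ∀ (t₁ : ℝ) (x₁ : E3) (σ : ℝ), 0 < σ →
    IsWG (rs w t₁ x₁ σ) (pre t₁ σ I) (pre t₁ σ Z) A C
  resc0 : ∀ w a Z A, IsW0 w (Ioo a 0) Z A → ∀ s > 0,
    IsW0 (resc w s) (Ioo (a / s ^ 2) 0) (zs Z s) A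
  rescG0 : ∀ w a Z A C, IsG0 w (Ioo a 0) Z A C → ∀ s > 0,
    IsG0 (resc w s) (Ioo (a / s ^ 2) 0) (zs Z s) A C
  rescG : ∀ w a Z A C, IsWG w (Ioo a 0) Z A C → ∀ s > 0,
    IsWG (resc w s) (Ioo (a / s ^ 2) 0) (zs Z s) A C
  dfc_rs : ∀ w I Z A, IsW0 w I Z A → ∀ (t₁ : ℝ) (x₁ : E3) (σ : ℝ), 0 < σ → ∀ f : ℝ → E3 → ℝ,
    ContDiff ℝ 1 (fun p : ℝ × E3 => f p.1 p.2) → ∀ a ∈ pre t₁ σ I, ∀ b ∈ pre t₁ σ I,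
    dfc (rs w t₁ x₁ σ) (fun t x => f (t₁ + σ ^ 2 * t) (x₁ + σ • x)) a b
      = (σ ^ 2)⁻¹ * dfc w f (t₁ + σ ^ 2 * a) (t₁ + σ ^ 2 * b)

/-- [MONO] Huisken's monotonicity formula and its first consequences -/
structure MonoW : Prop where
  mono : ∀ w I Z A, IsW0 w I Z A → ∀ (x₀ : E3) (t₀ : ℝ), ∀ t₁ ∈ I \ Z, ∀ t₂ ∈ I \ Z, t₁ ≤ t₂ →
    t₂ < t₀ → ENNReal.ofReal (gd (ar (w t₂)) x₀ √(t₀ - t₂)) + ∫⁻ t in Ioo t₁ t₂, dis w x₀ t₀ t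
      ≤ ENNReal.ofReal (gd (ar (w t₁)) x₀ √(t₀ - t₁))
  /-- the defect is controlled by the drop of the Gaussian density ratio -/
  dfc_le : ∀ w I Z A, IsW0 w I Z A → ∀ (x₀ : E3) (t₀ M : ℝ) J χ, Test 1 I J χ →
    ∀ t₁ ∈ J \ Z, ∀ t₂ ∈ J \ Z, t₁ ≤ t₂ → t₂ < t₀ → (∀ t ∈ Icc t₁ t₂, ∀ x, |χ t x|
      ≤ M * (Real.exp (-‖x - x₀‖ ^ 2 / (4 * (t₀ - t))) / (4 * Real.pi * (t₀ - t)))) →
    |dfc w χ t₁ t₂| ≤ M * (gd (ar (w t₁)) x₀ √(t₀ - t₁) - gd (ar (w t₂)) x₀ √(t₀ - t₂))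
  clear : ∀ w I Z A, IsW0 w I Z A → ∀ t₀ ∈ I, ∀ x₀, w t₀ x₀ = 0 → ∀ t₁ ∈ I \ Z, t₁ < t₀ →
    1 ≤ gd (ar (w t₁)) x₀ √(t₀ - t₁)
  hsq : ∃ C : ℝ, 0 ≤ C ∧ ∀ w I Z A, IsW0 w I Z A → ∀ (z : E3) (r : ℝ), 0 < r → ∀ t₁ ∈ I, ∀ t₂ ∈ I,
    t₁ ≤ t₂ → (∫⁻ t in Icc t₁ t₂, ∫⁻ x in ball z r, ENNReal.ofReal (lap (w t) x ^ 2) ∂(ar (w t))
        ≤ ENNReal.ofReal (C * A * (r ^ 2 + (t₂ - t₁)))) ∧
      IntervalIntegrable (fun t => ∫ x in ball z r, lap (w t) x ^ 2 ∂(ar (w t))) volume t₁ t₂ ∧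
      ∫ t in t₁..t₂, ∫ x in ball z r, lap (w t) x ^ 2 ∂(ar (w t)) ≤ C * A * (r ^ 2 + (t₂ - t₁))
  /-- the mass ratio is almost decreasing -/
  mk_anti : ∀ w I Z A, IsW0 w I Z A → ∀ (x : E3) (r : ℝ), 0 < r → ∀ t₁ ∈ I \ Z, ∀ t₂ ∈ I,
    t₁ ≤ t₂ → mk (ar (w t₂)) x r ≤ mk (ar (w t₁)) x r + 3 * A / r ^ 2 * (t₂ - t₁)

/-- [WHITE] local regularity, with small curvature -/
def WhiteW : Prop :=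
  ∀ A η : ℝ, 0 < η → ∃ ε > 0, ∀ w I Z, IsW0 w I Z A → ∀ (x₀ : E3) (t₀ t₁ ρ : ℝ), 0 < ρ →
    t₀ ∈ I → t₁ ∈ I \ Z → t₁ ≤ t₀ - 2 * ρ ^ 2 →
    (∀ t ∈ Icc (t₀ - ρ ^ 2) t₀, ∀ x ∈ closedBall x₀ ρ, RegAt w Z (t, x) ∧
      (w t x = 0 → gd (ar (w t₁)) x √(t - t₁) ≤ 1 + ε)) →
    w t₀ x₀ = 0 → ‖hs (w t₀) x₀‖ ≤ η / ρ

/-- [SHEET] a flow whose Gaussian density ratios are at most those of one plane is a graph -/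
def SheetW : Prop :=
  ∀ A η : ℝ, 0 < η → ∃ ε > 0, ∀ w I Z, IsW w I Z A → ∀ (Q : E3 ≃ₗᵢ[ℝ] E3) (p : E3)
    (R ρ t₀ t₁ : ℝ), 0 < R → 0 < ρ → t₀ ∈ I → t₁ ∈ I \ Z → t₀ - ρ ^ 2 ≤ t₁ →
    t₁ ≤ t₀ - 9 / 10 * ρ ^ 2 →
    (∀ (ξ : E2) (s r : ℝ), ‖ξ‖ ≤ R + 10 * ρ → |s| ≤ 10 * ρ → r ∈ Icc (ρ / 2) ρ →
      gd (ar (w t₁)) (pt Q p ξ s) r ≤ Real.exp (-s ^ 2 / (4 * r ^ 2)) + ε) →
    SheetOnW w Z (Icc (t₀ - ρ ^ 2 / 4) t₀) Q p R ρ η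

/-- [QS] the structure of the flow at quiet points. Put `Y = 20 A - 13`. -/
def QSW : Prop :=
  ∀ A : ℝ, 1 ≤ A → ∃ c₁ > 0, c₁ ≤ 1 ∧ ∀ θ > 0, θ ≤ c₁ / 10 → ∃ σ₀ > 0, ∀ σ, 0 < σ → σ ≤ σ₀ →
    ∃ δ > 0, ∃ κ > 0, ∀ w I Z, IsW w I Z A → ∀ (t : ℝ) (x : E3) (y : ℝ), Quiet w I δ t x y →
      (w t x = 0 → tbar w σ t x (y - (20 * A - 13)) ≤ 27 / 20 →
        (∀ r, r ≤ Real.exp (y + 1 / 2) → ¬Reg (w t) θ x r → ∃ z ∈ ball x r, w t z = 0 ∧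
          c₁ * Real.exp (y + 1 / 2) ≤ |⟪z - x, gradient (w t) x⟫| ∧
          ∀ (t' : ℝ) (x' : E3) (r' : ℝ), t - κ * Real.exp (2 * y) ≤ t' → t' ≤ t →
            ‖x' - x‖ ≤ κ * Real.exp y → w t' x' = 0 → 0 < r' →
            ‖x' - z‖ ^ 2 + 4 * (t - t') < r' ^ 2 → ¬Reg (w t') θ x' r') ∧
        ∀ y', y' ≤ y - (20 * A - 13) - 3 → tbar w σ t x y' ≤ 6 / 5) ∧
      ∀ y', y - (20 * A - 13) - 5 ≤ y' → y' ≤ y - 1 → 5 / 4 ≤ tbar w σ t x y' →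
        17 / 10 ≤ tbar w σ t x (y' + 2)

/-- [CELL] the loud lattice points in a cell of size `ρ`, and at small scales -/
structure CellW : Prop where
  smooth : ∀ w I Z A, IsW0 w I Z A → ∀ (z : E3) (r t : ℝ), 0 < r → Icc (t - r ^ 2) t ⊆ I →
    ContDiffAt ℝ ∞ (bbar w z r) t
  crude : ∀ A : ℝ, ∃ C : ℝ, ∀ w I Z, IsW0 w I Z A → ∀ (z : E3) (r t : ℝ), 0 < r →
    Icc (t - r ^ 2) t ⊆ I → r ^ 2 * |deriv (bbar w z r) t| ≤ C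
  count : ∀ A C δ : ℝ, 0 < δ → ∃ r₀ > 0, ∃ N : ℝ≥0, ∀ w I Z, IsG0 w I Z A C →
    ∀ (p : E3) (ρ t₁ t₂ : ℝ), 0 < ρ → t₂ ≤ t₁ + ρ ^ 2 → Icc (t₁ - ρ ^ 2) t₂ ⊆ I →
    ∀ F : Finset (ℤ × (Fin 3 → ℤ)), (∀ Q ∈ F, zQ Q ∈ ball p (2 * ρ) ∧ rQ Q ≤ r₀ * ρ) →
    ∑ Q ∈ F, volume {t ∈ Icc t₁ t₂ | δ ≤ bbar w (zQ Q) (rQ Q) t} ≤ N * ENNReal.ofReal (ρ ^ 2)
  small : ∀ A C δ Λ ε : ℝ, 0 < δ → 0 ≤ Λ → 0 < ε → ∃ r₀ > 0, ∃ ε' > 0, ∀ w I Z, IsG0 w I Z A C →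
    ∀ (p : E3) (ρ t₁ t₂ : ℝ), 0 < ρ → t₂ ≤ t₁ + ρ ^ 2 → Icc (t₁ - ρ ^ 2) t₂ ⊆ I →
    ∫⁻ t in Icc (t₁ - ρ ^ 2) t₂, ∫⁻ x in ball p (7 * ρ),
      ENNReal.ofReal (max (|lap (w t) x| - Λ / ρ) 0 ^ 2) ∂(ar (w t))
        ≤ ENNReal.ofReal (ε' * ρ ^ 2) →
    DefLe w Z (ball p (7 * ρ)) (t₁ - ρ ^ 2) t₂ (ε' * ρ ^ 2) →
    ∀ F : Finset (ℤ × (Fin 3 → ℤ)), (∀ Q ∈ F, zQ Q ∈ ball p (2 * ρ) ∧ rQ Q ≤ r₀ * ρ) →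
    ∑ Q ∈ F, ∫⁻ t in {t ∈ Icc t₁ t₂ | δ ≤ bbar w (zQ Q) (rQ Q) t},
      ENNReal.ofReal (rQ Q ^ 2 * |deriv (bbar w (zQ Q) (rQ Q)) t|) ≤ ENNReal.ofReal (ε * ρ ^ 2)
  tail : ∀ w I Z A C, IsG0 w I Z A C → ∀ (δ : ℝ) (p : E3) (R t₁ t₂ ε : ℝ), 0 < δ → 0 < ε →
    Icc t₁ t₂ ⊆ I → ∃ y : ℝ, ∀ F : Finset (ℤ × (Fin 3 → ℤ)),
      (∀ Q ∈ F, zQ Q ∈ ball p R ∧ (Q.1 : ℝ) ≤ y) →
      ∑ Q ∈ F, volume {t ∈ Icc t₁ t₂ | δ ≤ bbar w (zQ Q) (rQ Q) t} ≤ ENNReal.ofReal ε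

/-- [VISC] sharp barriers at each point and crude uniform barriers backwards in time imply the
integrated inequality -/
def ViscW : Prop :=
  ∀ w I Z A, IsW0 w I Z A → ∀ (ψ : ℝ → E3 → ℝ) (G F : ℝ × E3 → ℝ) (B : ℝ),
    ContDiff ℝ 2 (fun p : ℝ × E3 => ψ p.1 p.2) →
    HasCompactSupport (fun p : ℝ × E3 => ψ p.1 p.2) →
    tsupport (fun p : ℝ × E3 => ψ p.1 p.2) ⊆ I ×ˢ univ → (∀ t x, 0 ≤ ψ t x) →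
    AEStronglyMeasurable F ((stm w I).restrict (trk w fun p => ψ p.1 p.2)) →
    (∀ p ∈ trk w fun p => ψ p.1 p.2, 0 ≤ G p ∧ G p ≤ B ∧ |F p| ≤ B) →
    UpperSemicontinuousOn G (trk w fun p => ψ p.1 p.2) →
    (∀ p ∈ trk w fun p => ψ p.1 p.2, ∃ b : ℝ × E3 → ℝ, ContDiffAt ℝ 2 b p ∧ b p = G p ∧
      (∀ᶠ q in 𝓝[trk w fun p => ψ p.1 p.2] p, b q ≤ G q) ∧
        heat w (fun t x => b (t, x)) p.1 p.2 ≤ F p) →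
    (∃ C κ : ℝ, 0 < κ ∧ ∀ p ∈ trk w fun p => ψ p.1 p.2, ∀ η > 0, ∃ l : E3, ‖l‖ ≤ C ∧
      ∀ q ∈ trk w fun p => ψ p.1 p.2, q.1 ≤ p.1 → p.1 - q.1 ≤ κ → ‖q.2 - p.2‖ ≤ κ →
        G p + ⟪l, q.2 - p.2⟫ - C * ‖q.2 - p.2‖ ^ 2 - C * (p.1 - q.1) - η ≤ G q) →
    Integrable (fun p : ℝ × E3 => G p * adj w ψ p.1 p.2) (stm w I) ∧
      Integrable (fun p : ℝ × E3 => ψ p.1 p.2 * F p) (stm w I) ∧
      0 ≤ ∫ p, (G p * adj w ψ p.1 p.2 + ψ p.1 p.2 * F p) ∂(stm w I)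

/-- [PUSH] transport of a function along the rays in the directions `± n` -/
def PushW : Prop :=
  ∀ c : ℝ, 0 < c → ∃ C : ℝ≥0, ∀ W, IsSurf W → ∀ n : E3 → E3, ContDiff ℝ 1 n →
    (∀ z, W z = 0 → ‖n z‖ ≤ 1) → ∀ (S : ℝ) (g : E3 → ℝ≥0∞), Measurable g →
    ∃ G : E3 → ℝ≥0∞, Measurable G ∧ (∀ z x, Hit W n c S z x → g z ≤ G x) ∧
      ∫⁻ x, G x ∂(ar W)
        ≤ C * ∫⁻ z, g z * ENNReal.ofReal (1 + S ^ 2 * ‖fderiv ℝ n z‖ ^ 2) ∂(ar W)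

/-- [TILT] two sheets at a distance about `s` which do not cross are almost parallel -/
def TiltW : Prop :=
  ∀ A c : ℝ, 1 ≤ A → 0 < c → c ≤ 1 → ∃ C : ℝ, 1 ≤ C ∧ ∀ θ : ℝ, 0 < θ → θ ≤ c / 10 →
    ∀ W, IsSurf W → AR (ar W) A → ∀ (p : E3) (ρ s R : ℝ), 0 < s → 0 < R → R ≤ ρ →
    ∃ g : E3 → ℝ≥0∞, ∫⁻ x in ball p ρ, g x ∂(ar W)
        ≤ ENNReal.ofReal (C * R ^ 2) * ∫⁻ x in ball p (C * ρ), ENNReal.ofReal (hessSq W x) ∂(ar W) ∧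
      ∀ x ∈ ball p ρ, ∀ z, Adm W θ c x z → ‖z - x‖ ∈ Icc s (3 * s) →
        ENNReal.ofReal (tilt W x z - C * (s / R) ^ 2) ≤ g x

/-- [ERR] the error terms of the two-point barrier at small scales -/
def ErrW : Prop :=
  ∀ w I Z A C, IsG0 w I Z A C → ∀ c θ : ℝ, 0 < c → c ≤ 1 → 0 < θ → θ ≤ c / 10 →
    ∀ K : Set (ℝ × E3), IsCompact K → K ⊆ I ×ˢ univ → ∀ η > 0,
    ∃ y₂ : ℝ, ∀ ys ≤ y₂, ∃ y₃ : ℝ, ∀ y₀ ≤ y₃, ∃ E : ℝ × E3 → ℝ, Measurable E ∧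
      (∃ B, ∀ p, 0 ≤ E p ∧ E p ≤ B) ∧
      ∫⁻ p in K, ENNReal.ofReal (E p) ∂(stm w I) ≤ ENNReal.ofReal η ∧
      ∀ p ∈ K, ∀ (z : E3) (u : ℝ), Adm (w p.1) θ c p.2 z → ‖z - p.2‖ = Real.exp u → y₀ ≤ u →
        u ≤ ys → Real.exp (u - ys) * Real.exp (-2 * u)
            * (tilt (w p.1) p.2 z - Real.exp ((u - ys) / 2) / 2) ≤ E p ∧
          (u ≤ y₀ + 1 → Real.exp (y₀ - ys) * Real.exp (-2 * u) * tilt (w p.1) p.2 z ≤ E p)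

/-- [TD] the points at which the mass ratio has just dropped -/
def TDW : Prop :=
  ∀ w I Z A, IsW0 w I Z A → ∀ σ L : ℝ, 0 < σ → σ ≤ 1 → ∀ K : Set (ℝ × E3), IsCompact K →
    K ⊆ I ×ˢ univ → ∃ C y₃ : ℝ, ∀ y₀ ≤ y₃, ∃ S : Set (ℝ × E3), MeasurableSet S ∧
      stm w I S ≤ ENNReal.ofReal (C * Real.exp (2 * y₀)) ∧
      ∀ p ∈ K, w p.1 p.2 = 0 → ∀ y' ∈ Icc (y₀ - L) (y₀ + 1),
        mk (ar (w p.1)) p.2 (Real.exp y') ≤ 11 / 10 → 3 / 2 ≤ tbar w σ p.1 p.2 y' → p ∈ S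

/-- [CORE] the differential inequality for the truncated separation functional -/
def CoreW : Prop :=
  ∀ A : ℝ, 1 ≤ A → ∃ θ σ δ c C : ℝ, 0 < θ ∧ θ ≤ 1 / 10 ∧ 0 < σ ∧ σ ≤ 1 ∧ 0 < δ ∧ 0 < c ∧ c ≤ 1 ∧
    0 ≤ C ∧ ∀ w I Z C', IsWG w I Z A C' →
      IsOpen {p : ℝ × E3 × ℝ | p.1 ∈ I \ Z ∧ p.2.2 ∈ Om w I A σ θ p.1 p.2.1} ∧
      (∀ K : Set (ℝ × E3), IsCompact K → K ⊆ (I \ Z) ×ˢ univ → ∃ y₀ : ℝ, ∀ p ∈ K,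
        w p.1 p.2 = 0 → ∀ y ∈ Om w I A σ θ p.1 p.2, y₀ < y) ∧
      ∀ ψ : ℝ → E3 → ℝ, ContDiff ℝ 2 (fun p : ℝ × E3 => ψ p.1 p.2) →
        HasCompactSupport (fun p : ℝ × E3 => ψ p.1 p.2) →
        tsupport (fun p : ℝ × E3 => ψ p.1 p.2) ⊆ I ×ˢ univ → (∀ t x, 0 ≤ ψ t x) → ∀ η > 0,
        ∃ y₂ : ℝ, ∀ ys ≤ y₂, ∃ y₀ < ys, ∃ h : ℝ → ℝ, Continuous h ∧
          (∀ y, 0 ≤ h y ∧ h y ≤ 1 ∧ h y ≤ 21 * Real.exp (y - ys)) ∧ (∀ y ≤ y₀, h y = 0) ∧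
          (∀ y, ys ≤ y → h y = 1) ∧
          ∀ (J : Set ℝ) (γ : ℝ → E3 → ℝ → ℝ) (q : ℝ × E3 → ℝ) (y₁ : ℝ), IsOpen J → J ⊆ I →
            tsupport (fun p : ℝ × E3 => ψ p.1 p.2) ⊆ J ×ˢ univ →
            ContDiffOn ℝ 2 (fun p : ℝ × E3 × ℝ => γ p.1 p.2.1 p.2.2) (J ×ˢ univ) →
            (∀ t ∈ J, ∀ x y, 0 ≤ γ t x y ∧ γ t x y ≤ 1) →
            (∀ t ∈ J, ∀ x y, y₁ ≤ y → γ t x y = 0) →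
            Measurable q → (∃ B, ∀ p, 0 ≤ q p ∧ q p ≤ B) →
            (∀ p ∈ tsupport (fun p : ℝ × E3 => ψ p.1 p.2), w p.1 p.2 = 0 → ∀ y, y₀ ≤ y →
              ((p.1, p.2, y) ∈ closure {p' : ℝ × E3 × ℝ | p'.1 ∈ J ∧ γ p'.1 p'.2.1 p'.2.2 ≠ 0} →
                Quiet w I δ p.1 p.2 y) ∧
              ‖gradient (fun x => γ p.1 x y) p.2‖ ^ 2 ≤ γ p.1 p.2 y * q p ∧
              deriv (γ p.1 p.2) y - c * γ p.1 p.2 y ≤ Real.exp (2 * y) * q p ∧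
              (y ≤ ys → deriv (γ p.1 p.2) y ≤ Real.exp (2 * y) * q p)) →
            Integrable (fun p : ℝ × E3 => GG w I A σ θ (fun t x y => h y * γ t x y) p.1 p.2
              * adj w ψ p.1 p.2) (stm w I) ∧
            Integrable (fun p : ℝ × E3 => ψ p.1 p.2 * ∫ y in Om w I A σ θ p.1 p.2,
              h y * heat w (fun t x => γ t x y) p.1 p.2) (stm w I) ∧
            -η ≤ ∫ p, (GG w I A σ θ (fun t x y => h y * γ t x y) p.1 p.2 * adj w ψ p.1 p.2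
              + ψ p.1 p.2 * ((∫ y in Om w I A σ θ p.1 p.2,
                h y * heat w (fun t x => γ t x y) p.1 p.2) + C * q p)) ∂(stm w I)

/-- [TAN] compactness, slow motion, and the first properties of the limits -/
structure TangW : Prop where
  compact : ∀ w a Z A, a < 0 → IsW0 w (Ioo a 0) Z A → ∀ s : ℕ → ℝ, (∀ i, 0 < s i) →
    Tendsto s atTop (𝓝 0) → (∀ i, s i ^ 2 * (-1) ∉ Z) →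
    ∃ (φ : ℕ → ℕ) (ν : Measure E3), StrictMono φ ∧ TanW w Z (s ∘ φ) ν
  slow : ∀ w a Z A, a < 0 → IsW0 w (Ioo a 0) Z A → ∀ s ν, TanW w Z s ν →
    ∀ (t : ℕ → ℝ) (t' : ℝ), t' < 0 → Tendsto t atTop (𝓝 t') → (∀ᶠ i in atTop, s i ^ 2 * t i ∉ Z) →
    WeakTendsto (fun i => ar (resc w (s i) (t i))) (scal ν √(-t'))
  ratio : ∀ w a Z A, a < 0 → IsW0 w (Ioo a 0) Z A → ∀ s ν, TanW w Z s ν → AR ν A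
  /-- the dissipation in bounded windows tends to zero -/
  diss : ∀ w a Z A, a < 0 → IsW0 w (Ioo a 0) Z A →
    Tendsto (fun b => ∫⁻ t in Ioo b 0, dis w 0 0 t) (𝓝[<] 0) (𝓝 0)
  /-- the drop of the Gaussian density ratio tends to zero -/
  drop : ∀ w a Z A, a < 0 → IsW0 w (Ioo a 0) Z A → ∀ ε > 0, ∃ b < 0, ∀ t₁ ∈ Ioo b 0 \ Z,
    ∀ t₂ ∈ Ioo b 0 \ Z, t₁ ≤ t₂ → gd (ar (w t₁)) 0 √(-t₁) - gd (ar (w t₂)) 0 √(-t₂) ≤ ε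
  /-- the defect in bounded windows tends to zero -/
  defect : ∀ w a Z A, a < 0 → IsW0 w (Ioo a 0) Z A → ∀ R ε : ℝ, 1 ≤ R → 0 < ε → ∃ ρ₀ > 0,
    ∀ s ρ : ℝ, 0 < s → 0 < ρ → s * ρ ≤ ρ₀ →
      DefLe (resc w s) (zs Z s) (ball 0 (R * ρ)) (-(R * ρ) ^ 2) (-(ρ / R) ^ 2) (ε * ρ ^ 2)

/-- [FLAT] -/
def FlatW : Prop :=
  ∀ w a Z A C, a < 0 → IsG0 w (Ioo a 0) Z A C → ∀ s ν, TanW w Z s ν → Flat ν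

/-- [UNIT] if the points of Gaussian density one are regular then so are the points of density
close to one -/
def UnitW : Prop :=
  ∀ w I Z A C, IsG0 w I Z A C → (∀ p : ℝ × E3, p.1 ∈ I →
    Tendsto (fun r => gd (ar (w (p.1 - r ^ 2))) p.2 r) (𝓝[{r | 0 < r ∧ p.1 - r ^ 2 ∉ Z}] 0) (𝓝 1) →
      RegAt w Z p) → ∃ A', IsWG w I Z A' C

/-- [REGPT] regularity near a point which is not of higher multiplicity -/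
def RegPtW : Prop :=
  ∀ w a Z A C, a < 0 → IsWG w (Ioo a 0) Z A C → ∀ s ν, TanW w Z s ν → ∀ t < 0, ∀ p : E3,
    (√(-t))⁻¹ • p ∉ Zset ν → ∀ η > 0, ∃ (Q : E3 ≃ₗᵢ[ℝ] E3) (p' : E3) (ρ : ℝ), 0 < ρ ∧ ρ < η ∧
      t + ρ ^ 2 < 0 ∧ ‖p' - p‖ ≤ ρ ∧ ∀ᶠ i in atTop, SheetOnW (resc w (s i)) (zs Z (s i))
        (Icc (t - ρ ^ 2 / 8) (t + ρ ^ 2 / 8)) Q p' (5 * ρ) ρ η

/-- [M1] some tangent flow has multiplicity one almost everywhere -/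
def M1W : Prop :=
  ∀ w a Z A C, a < 0 → IsWG w (Ioo a 0) Z A C → ∃ s ν, TanW w Z s ν ∧ ν (Zset ν) = 0

/-- [DENS] multiplicity one almost everywhere implies multiplicity one everywhere -/
def DensW : Prop :=
  ∀ w a Z A C, a < 0 → IsWG w (Ioo a 0) Z A C → ∀ s ν, TanW w Z s ν → ν (Zset ν) = 0 →
    Zset ν = ∅

/-- [LIM] the smooth limit -/
def LimW : Prop :=
  ∀ w a Z A C, a < 0 → IsWG w (Ioo a 0) Z A C → ∀ s ν, TanW w Z s ν → Zset ν = ∅ →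
    ∃ W, IsShr W ∧ ar W = ν ∧ LGB W C

/-- [SHAPE] the outcome: a smooth tangent flow of multiplicity one with cylindrical or conical
ends -/
def ShapeW : Prop :=
  ∀ w a Z A C, a < 0 → IsWG w (Ioo a 0) Z A C → ∃ s W, TanW w Z s (ar W) ∧ IsShr W ∧
    Vale.Agent.P218GA.HasCylConeEnds {x | W x = 0}

end Vale.Agent.P218WA
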